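import Crest.Agent.X262.Emb11.Defs
import Crest.Agent.X262.Prd86.Gw
import Crest.Agent.X262.Tr89.Pb
import Crest.Agent.X262.Vb10.Amal

/-!
# Row 262, road B, EMB (helper86): the universal datum with one more factor

`univStmt : Emb.UnivStmt`.
-/

set_option autoImplicit false
set_option linter.unusedSectionVars false
set_option linter.style.haveILetI false

noncomputable section

namespace Crest.Agent.X262.Unv

open Crest.Agent.X277 Crest.Agent.X277.BD
open Crest.Agent.X262.Hb Crest.Agent.X262.Wd Crest.Agent.X262.Vb Crest.Agent.X262.Emb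
open Crest.Agent.X262.Prd Crest.Agent.X262.Tr89
open Crest.Agent.X262.Div (rn rn_tower tower_ind)
open Crest.Agent.R274.Prod1_134 (IsPF)
open List (replicate)
open IntermediateField (adjoin)
open Set (range)

section PN

variable {k F P : Type} [Field k] [Field F] [Algebra k F] [CharZero k] [Fintype P] {m : ℕ}

theorem mxf_eqv {P' : Type} [Fintype P'] (e : P' ≃ P) {u : P → F} (h : ∃ x, u x ≠ 0) :
    mxf k u = mxf k (u ∘ e) :=
  eq_mxf (fun i => mem_Sec_mxf u (e i)) fun W => by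
    obtain ⟨j, hj⟩ := exists_val_mxf (k := k) h W
    exact ⟨e.symm j, by simpa using hj⟩

/-- a projective space -/
theorem proj [Algebra.EssFiniteType k F] {u : P → F} (hP : Fintype.card P = m + 1)
    (h0 : ∀ x, u x ≠ 0) (hg : adjoin k {t | ∃ x y, t = u x / u y} = ⊤) (hd : dim k F = m) :
    bnum (replicate m (mxf k u)) = 1 ∧ ∀ a : P → k, ∑ x, algebraMap k F (a x) * u x = 0 → a = 0 := by
  classical
  let e : Fin (m + 1) ≃ P := (Fintype.equivFinOfCardEq hP).symm
  have h1 : adjoin k (range fun i : Fin m => (u ∘ e) i.succ / (u ∘ e) 0) = ⊤ := by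
    refine eq_top_iff.2 (hg ▸ IntermediateField.adjoin_le_iff.2 ?_)
    have h2 : ∀ x, u x / u (e 0) ∈
        adjoin k (range fun i : Fin m => (u ∘ e) i.succ / (u ∘ e) 0) := fun x => by
      obtain ⟨i, rfl⟩ := e.surjective x
      refine Fin.cases ?_ (fun i => IntermediateField.subset_adjoin _ _ ⟨i, rfl⟩) i
      rw [div_self (h0 _)]
      exact one_mem _
    rintro _ ⟨x, y, rfl⟩
    rw [← div_div_div_cancel_right₀ (h0 (e 0)) (u x) (u y)]
    exact div_mem (h2 x) (h2 y)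
  refine ⟨?_, fun a ha => ?_⟩
  · rw [mxf_eqv e ⟨e 0, h0 _⟩]
    exact bnum_proj (h0 _) h1 hd
  · have h2 := (pind_of_algInd (k := k) (x := u ∘ e) (h0 _)
      (algInd_of_dim h1 (by simp [hd]))).comp e.symm.injective
    have h3 := h2 1 (∑ x, MvPolynomial.C (a x) * MvPolynomial.X x)
      (MvPolynomial.IsHomogeneous.sum _ _ _ fun x _ => (MvPolynomial.isHomogeneous_X k x).C_mul _)
      (by simpa [map_sum] using ha)
    refine _root_.funext fun x => ?_
    have h4 := congrArg (MvPolynomial.eval (Pi.single x 1)) h3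
    simpa [map_sum, Pi.single_apply] using h4

end PN

section PF

variable {K K₂ L₁ L P : Type} [Field K] [Algebra ℂ K] [Field K₂] [Algebra ℂ K₂] [Field L₁]
  [Algebra ℂ L₁] [Field L] [Algebra ℂ L] [Algebra.EssFiniteType ℂ K] [Algebra.EssFiniteType ℂ K₂]
  [Algebra.EssFiniteType ℂ L] [Fintype P] {m : ℕ}

/-- a projective bundle, pulled back along `θ` -/
theorem proj_pf {b₁ : K →ₐ[ℂ] L₁} {b₂ : K₂ →ₐ[ℂ] L₁} (hp : IsPF b₁ b₂) {u : P → K₂}
    (hP : Fintype.card P = m + 1) (h0 : ∀ x, u x ≠ 0)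
    (hg : adjoin ℂ {t | ∃ x y, t = u x / u y} = ⊤) (hd : dim ℂ K₂ = m) (θ : L₁ →ₐ[ℂ] L) :
    rn (θ.comp b₁) (replicate m (mxf ℂ fun x => θ (b₂ (u x)))) = deg θ ∧
      LinInd (θ.comp b₁) fun x => θ (b₂ (u x)) := by
  have := essFT_pf hp
  have hd1 := dim_pf hp
  have hg1 := hp.adjoin_eq
  letI := b₁.toRingHom.toAlgebra
  haveI : IsScalarTower ℂ K L₁ := IsScalarTower.of_algebraMap_eq fun c => (b₁.commutes c).symm
  haveI : Algebra.EssFiniteType K L₁ := Algebra.EssFiniteType.of_comp ℂ K L₁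
  haveI : CharZero K := charZero_of_injective_algebraMap (algebraMap ℂ K).injective
  letI := (θ.comp b₁).toRingHom.toAlgebra
  haveI : IsScalarTower ℂ K L :=
    IsScalarTower.of_algebraMap_eq fun c => ((θ.comp b₁).commutes c).symm
  haveI : Algebra.EssFiniteType K L := Algebra.EssFiniteType.of_comp ℂ K L
  let θ' : L₁ →ₐ[K] L := { θ.toRingHom with commutes' := fun _ => rfl }
  have key := proj (k := K) (u := fun x => b₂ (u x)) hP (fun x => (map_ne_zero b₂).2 (h0 x))
    (by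
      refine eq_top_iff.2 fun z _ => ?_
      have h1 : z ∈ adjoin ℂ (range b₁ ∪ range b₂) := hg1 ▸ IntermediateField.mem_top
      refine (IntermediateField.adjoin_le_iff (T := (adjoin K _).restrictScalars ℂ)).2
        (Set.union_subset ?_ (range_le b₂ hg ?_)) h1
      · rintro _ ⟨c, rfl⟩
        exact IntermediateField.algebraMap_mem _ c
      · rintro _ ⟨_, ⟨x, y, rfl⟩, rfl⟩
        exact IntermediateField.subset_adjoin K _ ⟨x, y, map_div₀ b₂ _ _⟩)
    (by
      rw [Loc.dim_tower ℂ K L₁, hd] at hd1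
      omega)
  refine ⟨?_, fun a ha => key.2 a (θ.injective ?_)⟩
  · have h1 : θ.comp b₁ = IsScalarTower.toAlgHom ℂ K L := rfl
    have h2 := bnum_pb θ' (replicate m (mxf K fun x => b₂ (u x)))
    rw [key.1, mul_one, List.map_replicate, pb_mxf] at h2
    rw [h1, rn_tower, List.map_replicate, up_mxf]
    exact h2
  · rw [map_zero, ← ha, map_sum]
    exact Finset.sum_congr rfl fun x _ => map_mul θ _ _

end PF

variable {J : Type} [Fintype J] [DecidableEq J] (io : Option J → Type) [∀ j, Fintype (io j)]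
  [∀ j, DecidableEq (io j)]

/-- the old factors -/
def p1 : Pj (bs io) io := ⟨some, Option.some_injective J, fun _ => Equiv.refl _⟩

/-- the new factor -/
def p2 : Pj (fun _ : Unit => io none) io :=
  ⟨fun _ => none, fun _ _ _ => rfl, fun _ => Equiv.refl _⟩

theorem sp : Sp (p1 io) (p2 io) :=
  ⟨fun _ _ h => Option.some_ne_none _ h, fun
    | none => Or.inr ⟨(), rfl⟩
    | some k => Or.inl ⟨k, rfl⟩⟩

/-- **UNIV** -/
theorem univStmt : UnivStmt := by
  intro J _ _ io _ _ d n N hio M I K₀ K _ _ _ _ _ _ _ _ ξ₀ θ ξ m u₀ hθ hξ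
  obtain ⟨K₂, _, _, _, ξ₂, u₂⟩ := Vb37.exists_univ (io := fun _ : Unit => io none)
    (d := fun _ => n) (M := Fin 3) (fun _ => hio) (by simp)
  have hp := R274.Prod1_134.isPF ℂ K₀ K₂
  have := essFT_pf hp
  have i1 : deg (AlgHom.id ℂ K₂) = 1 := deg_id
  obtain ⟨L₁, _, _, _, b₁, b₂, θ₁, q1, q2, q3, q4⟩ :=
    Am12.exists_amal2 (prd_of_pf hp) θ (AlgHom.id ℂ K₂) hθ (i1 ▸ one_pos)
  rw [i1, mul_one] at q4
  have hq := Am12.isPF_of_prd q1
  obtain ⟨ζ₀, x1, x2, x3⟩ := exists_dat (d := exd d n) (sp io) (ξ₀.map (R274.Prod1_134.pα ℂ K₀ K₂))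
    (ξ₂.map (R274.Prod1_134.pβ ℂ K₀ K₂))
  have u := univ_prod (d := exd d n) (sp io) hp u₀ u₂ x1 x2 x3
  obtain ⟨ζ, y1, y2, y3⟩ := exists_dat (d := exd d n) (sp io) (ξ.map b₁) (ξ₂.map b₂)
  have z1 : prD ζ = ξ.map b₁ := Vb10.dat_ext y1 y3
  have z0 : prD ζ₀ = ξ₀.map _ := Vb10.dat_ext x1 x3
  have z2 : ζ₀.map θ₁ = ζ.res m := by
    have h1 : (prD ζ₀).map θ₁ = (prD ζ).res m := by
      rw [z0, z1, Vb10.map_map, ← q2, ← Vb10.map_map, ← hξ, Vb10.map_res]
    refine Vb10.dat_ext (_root_.funext fun j => ?_) (congrArg Dat.x h1 :)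
    rcases j with _ | j
    · refine _root_.funext fun i => ?_
      have h2 : ζ₀.f none i = _ := congrFun (congrFun x2 ()) i
      have h3 : ζ.f none i = _ := congrFun (congrFun y2 ()) i
      have h4 : b₂ = θ₁.comp (R274.Prod1_134.pβ ℂ K₀ K₂) := q3
      change (ζ₀.f none i).map _ = ζ.f none i
      rw [h2, h3, h4, ← Vb10.map_map]
      rfl
    · exact congrFun (congrArg (Dat.f (I := M)) h1) j
  obtain ⟨L, _, _, _, θ₂, r, η, p1, p2, p3⟩ := Vb10.exNrm ζ N
  have hc : coef η = fun x => θ₂ (b₂ ((ξ₂.f () x.1).coeff x.2)) := _root_.funext fun x => by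
    have h1 : η.f none x.1 = (ζ.f none x.1).map _ :=
      congrFun (congrFun (congrArg (Dat.f (I := I)) p2) none) x.1
    have h3 : ζ.f none x.1 = (ξ₂.f () x.1).map _ := congrFun (congrFun y2 ()) x.1
    rw [coef, h1, h3, Polynomial.coeff_map, Polynomial.coeff_map]
    rfl
  have hm : Fintype.card (io none × Fin (n + 1)) = Emb.mp io n + 1 := by
    have : 0 < Fintype.card (io none) * (n + 1) := Nat.mul_pos Fintype.card_pos n.succ_pos
    rw [Fintype.card_prod, Fintype.card_fin, Emb.mp]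
    omega
  have hd : dim ℂ K₂ = Emb.mp io n := by
    have e2 := u₂.2.2
    rw [trdeg_eq_dim, Nat.cast_inj] at e2
    simpa [mdim, Emb.mp] using e2
  have key := proj_pf hq (u := fun x : io none × Fin (n + 1) => (ξ₂.f () x.1).coeff x.2) hm
    (fun x => Vb37.univ_coeff_ne u₂ () x.1 (Nat.lt_succ_iff.1 x.2.2))
    (by
      refine eq_top_iff.2 (u₂.2.1 ▸ IntermediateField.adjoin_le_iff.2 ?_)
      rintro t (⟨⟨⟩, i, i', l, l', rfl⟩ | ⟨q, hq⟩)
      · by_cases h1 : l ≤ n
        · by_cases h2 : l' ≤ n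
          · exact IntermediateField.subset_adjoin _ _
              ⟨(i, ⟨l, Nat.lt_succ_of_le h1⟩), (i', ⟨l', Nat.lt_succ_of_le h2⟩), rfl⟩
          · rw [Polynomial.coeff_eq_zero_of_natDegree_lt (n := l')
              ((ξ₂.cp.1 () i').trans_lt (not_le.1 h2)), div_zero]
            exact zero_mem _
        · rw [Polynomial.coeff_eq_zero_of_natDegree_lt (n := l)
            ((ξ₂.cp.1 () i).trans_lt (not_le.1 h1)), zero_div]
          exact zero_mem _
      · obtain ⟨a, b, c, e⟩ := u₂.1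
        obtain ⟨n1, n2, n3⟩ := Vb37.Nm3.ne e
        have h4 : ∀ a b c q : Fin 3, a ≠ b → a ≠ c → b ≠ c → q = a ∨ q = b ∨ q = c := by decide
        rcases h4 a b c q n1 n2 n3 with rfl | rfl | rfl
        · simp [e.1] at hq
        · obtain rfl : 0 = t := by simpa [e.2.1] using hq
          exact zero_mem _
        · obtain rfl : 1 = t := by simpa [e.2.2] using hq
          exact one_mem _) hd θ₂
  rw [← hc] at key
  refine ⟨_, inferInstance, inferInstance, this, L, inferInstance, inferInstance, inferInstance,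
    θ₂.comp θ₁, θ₂.comp b₁, _, inferInstance, Sum.inl, η, ?_, p3, ⟨ζ₀, u, ?_⟩, ?_, ?_, key.2, ?_⟩
  · rw [p2, ← Vb10.map_map, ← z1]
    rfl
  · have h1 : η.res (Sum.inl ∘ m) = (η.res Sum.inl).res m := rfl
    rw [← Vb10.map_map, z2, h1, p2, Vb10.map_res]
    exact Vb37.eqv_refl _
  · rw [Vb10.deg_comp, q4]
    exact Nat.mul_pos hθ p1
  · rw [(deg_pos_iff θ₂).1 p1, dim_pf hq, hd]
  · rw [key.1, Vb10.deg_comp, q4, Nat.cast_mul]

end Crest.Agent.X262.Unv
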